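import Mathlib

/-!
# P336: growth of the parameters (self-contained version of PART H2)
-/

namespace Vale.Agent.P336.H928

open Finset Filter

/-- The slowly growing parameter, about `√(log n / log log n)` up to a constant. -/
def gτ (n : ℕ) : ℕ := Nat.sqrt (Nat.size (Nat.sqrt n) / (128 * Nat.size (Nat.size (Nat.sqrt n))))

/-- `≈ √n / 64 * τ`. -/
def gν (n : ℕ) : ℕ := Nat.sqrt n / 64 * gτ n

theorem gν_lower (ℓ : ℕ) (h1 : (256 : ℝ) ≤ Real.sqrt ℓ) (hL : 16 ≤ Real.log ℓ)
    (hLL : 2 ≤ Real.log (Real.log ℓ)) (hr : 8192 ≤ Real.log ℓ / Real.log (Real.log ℓ)) :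
    Real.sqrt (ℓ * Real.log ℓ / Real.log (Real.log ℓ)) / 23552 ≤ gν ℓ := by
  set L := Real.log ℓ with hLdef
  set LL := Real.log L with hLLdef
  set s := Nat.sqrt ℓ with hs
  have hlog2 : (0.69 : ℝ) < Real.log 2 := by linarith [Real.log_two_gt_d9]
  have hlog2' : Real.log 2 < 1 := by linarith [Real.log_two_lt_d9]
  have hℓ0 : (0 : ℝ) < Real.sqrt ℓ := by linarith
  have hℓpos : (0 : ℝ) < ℓ := by
    by_contra h
    have : Real.sqrt ℓ = 0 := Real.sqrt_eq_zero_of_nonpos (not_lt.mp h)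
    linarith
  -- `s ≤ √ℓ < s + 1`
  have hs1 : (s : ℝ) ≤ Real.sqrt ℓ := by
    have := Nat.sqrt_le' ℓ
    apply Real.le_sqrt_of_sq_le
    rw [hs]
    exact_mod_cast this
  have hs2 : Real.sqrt ℓ ≤ s + 1 := by
    rw [Real.sqrt_le_left (by positivity)]
    have h3 : ℓ ≤ (s + 1) ^ 2 := by
      rw [hs]
      exact (Nat.lt_succ_sqrt' ℓ).le
    exact_mod_cast h3
  have hs3 : Real.sqrt ℓ / 2 ≤ s := by linarith
  have hspos : (0 : ℝ) < s := by linarith
  have hsne : s ≠ 0 := by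
    rintro h; rw [h] at hspos; simp at hspos
  have hlogsqrt : Real.log (Real.sqrt ℓ) = L / 2 := by
    rw [Real.log_sqrt hℓpos.le]
  -- lower bound on `size s`
  set S1 := Nat.size s with hS1
  have hS1lo : L / 4 ≤ S1 := by
    have h4 : s < 2 ^ S1 := Nat.lt_size_self s
    have h5 : Real.log s ≤ S1 * Real.log 2 := by
      rw [← Real.log_pow]
      exact Real.log_le_log hspos (by exact_mod_cast h4.le)
    have h6 : Real.log (Real.sqrt ℓ / 2) ≤ Real.log s := Real.log_le_log (by positivity) hs3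
    rw [Real.log_div (by positivity) (by norm_num), hlogsqrt] at h6
    have h7 : (0 : ℝ) ≤ S1 := by positivity
    nlinarith
  have hS1pos : (0 : ℝ) < S1 := by linarith
  have hS1nat : 0 < S1 := by exact_mod_cast hS1pos
  -- upper bound on `size s`
  have hS1up : (S1 : ℝ) ≤ L := by
    have h4 : 2 ^ (S1 - 1) ≤ s := by
      rw [← Nat.lt_size]
      omega
    have h5 : ((S1 - 1 : ℕ) : ℝ) * Real.log 2 ≤ L / 2 := by
      rw [← Real.log_pow, ← hlogsqrt]
      apply Real.log_le_log (by positivity)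
      refine le_trans ?_ hs1
      exact_mod_cast h4
    rw [Nat.cast_sub (by omega : 1 ≤ S1)] at h5
    push_cast at h5
    nlinarith
  set S2 := Nat.size S1 with hS2
  have hS2nat : 0 < S2 := Nat.size_pos.mpr hS1nat
  have hS2pos : (0 : ℝ) < S2 := by exact_mod_cast hS2nat
  have hS2up : (S2 : ℝ) ≤ 2 * LL := by
    have h4 : 2 ^ (S2 - 1) ≤ S1 := by
      rw [← Nat.lt_size]
      omega
    have h5 : ((S2 - 1 : ℕ) : ℝ) * Real.log 2 ≤ LL := by
      rw [← Real.log_pow]
      apply Real.log_le_log (by positivity)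
      refine le_trans ?_ hS1up
      exact_mod_cast h4
    rw [Nat.cast_sub (by omega : 1 ≤ S2)] at h5
    push_cast at h5
    nlinarith
  have hLLpos : 0 < LL := by linarith
  -- the quotient
  set A := S1 / (128 * S2) with hA
  have hAlo : L / LL / 1024 ≤ A + 1 := by
    have h4 : S1 < (128 * S2) * (A + 1) := by
      rw [hA]
      exact Nat.lt_mul_div_succ S1 (by positivity)
    have h5 : (S1 : ℝ) ≤ (128 * S2) * (A + 1) := by exact_mod_cast h4.le
    have h6 : L / 4 ≤ (128 * (2 * LL)) * (A + 1) := by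
      refine hS1lo.trans (h5.trans ?_)
      gcongr
    rw [div_div, div_le_iff₀ (by positivity)]
    nlinarith
  have hAlo2 : L / LL / 2048 ≤ A := by
    have : 8 ≤ L / LL / 1024 := by
      rw [le_div_iff₀ (by norm_num)]; linarith
    have h5 : L / LL / 2048 = L / LL / 1024 / 2 := by ring
    rw [h5]; linarith
  have hτ : gτ ℓ = Nat.sqrt A := rfl
  have hτlo : Real.sqrt (L / LL / 2048) / 2 ≤ gτ ℓ := by
    have h4 : A ≤ (gτ ℓ + 1) ^ 2 := by
      rw [hτ]; exact (Nat.lt_succ_sqrt' A).le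
    have h5 : Real.sqrt (L / LL / 2048) ≤ gτ ℓ + 1 := by
      rw [Real.sqrt_le_left (by positivity)]
      refine hAlo2.trans ?_
      exact_mod_cast h4
    have h6 : 2 ≤ Real.sqrt (L / LL / 2048) := by
      apply Real.le_sqrt_of_sq_le
      rw [le_div_iff₀ (by norm_num)]; linarith
    linarith
  have hs64 : Real.sqrt ℓ / 256 ≤ ((s / 64 : ℕ) : ℝ) := by
    have h4 : s < 64 * (s / 64 + 1) := Nat.lt_mul_div_succ s (by norm_num)
    have h5 : (s : ℝ) ≤ 64 * (((s / 64 : ℕ) : ℝ) + 1) := by exact_mod_cast h4.le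
    linarith
  have hν : (gν ℓ : ℝ) = ((s / 64 : ℕ) : ℝ) * gτ ℓ := by
    rw [gν]; push_cast; rfl
  rw [hν]
  have h2048 : Real.sqrt 2048 ≤ 46 := by
    rw [Real.sqrt_le_left (by norm_num)]; norm_num
  have hsq : Real.sqrt (ℓ * L / LL) = Real.sqrt ℓ * Real.sqrt (L / LL / 2048) * Real.sqrt 2048 := by
    rw [← Real.sqrt_mul hℓpos.le, ← Real.sqrt_mul (by positivity)]
    congr 1
    field_simp
  rw [hsq]
  have hb : 0 ≤ Real.sqrt (L / LL / 2048) := Real.sqrt_nonneg _
  calc Real.sqrt ℓ * Real.sqrt (L / LL / 2048) * Real.sqrt 2048 / 23552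
      ≤ Real.sqrt ℓ * Real.sqrt (L / LL / 2048) * 46 / 23552 := by gcongr
    _ = (Real.sqrt ℓ / 256) * (Real.sqrt (L / LL / 2048) / 2) := by ring
    _ ≤ ((s / 64 : ℕ) : ℝ) * gτ ℓ := by gcongr

theorem growth :
    ∃ c : ℝ, 0 < c ∧ ∀ᶠ n : ℕ in Filter.atTop,
      (2 : ℝ) ^ (c * Real.sqrt (n * Real.log n / Real.log (Real.log n))) * 32 ≤
        2 ^ (Nat.sqrt n / 64 * Nat.sqrt (Nat.size (Nat.sqrt n) /
          (128 * Nat.size (Nat.size (Nat.sqrt n))))) := by
  refine ⟨1 / 50000, by norm_num, ?_⟩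
  have hnat : Tendsto (fun n : ℕ => (n : ℝ)) atTop atTop := tendsto_natCast_atTop_atTop
  have hsqrt : Tendsto (fun n : ℕ => Real.sqrt n) atTop atTop :=
    Real.tendsto_sqrt_atTop.comp hnat
  have hlog : Tendsto (fun n : ℕ => Real.log n) atTop atTop :=
    Real.tendsto_log_atTop.comp hnat
  have hloglog : Tendsto (fun n : ℕ => Real.log (Real.log n)) atTop atTop :=
    Real.tendsto_log_atTop.comp hlog
  have hquot0 : Tendsto (fun x : ℝ => x / Real.log x) atTop atTop := by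
    have h1 : Tendsto (fun x : ℝ => Real.log x / x) atTop (nhdsWithin 0 (Set.Ioi 0)) := by
      rw [tendsto_nhdsWithin_iff]
      refine ⟨?_, ?_⟩
      · have := Real.isLittleO_log_id_atTop.tendsto_div_nhds_zero
        simpa using this
      · filter_upwards [eventually_gt_atTop (1 : ℝ)] with x hx
        exact div_pos (Real.log_pos hx) (by linarith)
    have h2 := h1.inv_tendsto_nhdsGT_zero
    refine h2.congr fun x => ?_
    simp [inv_div]
  have hquot : Tendsto (fun n : ℕ => Real.log n / Real.log (Real.log n)) atTop atTop :=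
    hquot0.comp hlog
  filter_upwards [hsqrt.eventually_ge_atTop 1000000, hlog.eventually_ge_atTop 16,
    hloglog.eventually_ge_atTop 2, hquot.eventually_ge_atTop 8192] with ℓ h1 h2 h3 h4
  have key := gν_lower ℓ (by linarith) h2 h3 h4
  set R := Real.sqrt (ℓ * Real.log ℓ / Real.log (Real.log ℓ)) with hR
  have hRbig : 1000000 ≤ R := by
    refine h1.trans ?_
    rw [hR]
    apply Real.sqrt_le_sqrt
    rw [mul_div_assoc]
    have : (0 : ℝ) ≤ ℓ := by positivity
    nlinarith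
  have h5 : 1 / 50000 * R + 5 ≤ gν ℓ := by linarith
  calc (2 : ℝ) ^ (1 / 50000 * R) * 32 = (2 : ℝ) ^ (1 / 50000 * R) * (2 : ℝ) ^ (5 : ℝ) := by
        norm_num
    _ = (2 : ℝ) ^ (1 / 50000 * R + 5) := by rw [Real.rpow_add (by norm_num)]
    _ ≤ (2 : ℝ) ^ ((gν ℓ : ℕ) : ℝ) := Real.rpow_le_rpow_of_exponent_le (by norm_num) h5
    _ = 2 ^ gν ℓ := Real.rpow_natCast _ _

end Vale.Agent.P336.H928
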