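import Vale.Agent.P336.H746.Interface

/-!
# P336, PART S: every Boolean function is computed by some depth-three circuit
-/

namespace Vale.Agent.P336.H928

open Finset Vale.Agent.P336.H746

/-- The circuit consisting of a single CNF: one clause for each zero of `f`. -/
noncomputable def cnfCircuit (n : ℕ) (f : (Fin n → Bool) → Bool) : Circuit n where
  bot := Fintype.card {y : Fin n → Bool // f y = false}
  mid := 1
  orIn := fun c => Finset.univ.image fun i =>
    Input.lit i (!((Fintype.equivFin {y : Fin n → Bool // f y = false}).symm c).1 i)
  andIn := fun _ => Finset.univ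
  topIn := Finset.univ

theorem partS : PartS := by
  intro n f
  refine ⟨cnfCircuit n f, fun x => ?_⟩
  have hbot : ∀ c, (cnfCircuit n f).botVal x c ↔
      x ≠ ((Fintype.equivFin {y : Fin n → Bool // f y = false}).symm c).1 := by
    intro c
    constructor
    · rintro ⟨u, hu, hux⟩ hxy
      simp only [cnfCircuit, Finset.mem_image, Finset.mem_univ, true_and] at hu
      obtain ⟨i, rfl⟩ := hu
      simp only [Input.eval] at hux
      rw [hxy] at hux
      revert hux
      cases ((Fintype.equivFin {y : Fin n → Bool // f y = false}).symm c).1 i <;> simp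
    · intro hxy
      obtain ⟨i, hi⟩ := Function.ne_iff.mp hxy
      refine ⟨_, Finset.mem_image.mpr ⟨i, Finset.mem_univ _, rfl⟩, ?_⟩
      simp only [Input.eval]
      revert hi
      cases x i <;> cases ((Fintype.equivFin {y : Fin n → Bool // f y = false}).symm c).1 i <;> simp
  constructor
  · rintro ⟨g, -, hg⟩
    by_contra hf
    have hf' : f x = false := by simpa using hf
    have h1 := hg (Fintype.equivFin {y : Fin n → Bool // f y = false} ⟨x, hf'⟩) (Finset.mem_univ _)
    exact (hbot _).mp h1 (by simp)
  · intro hf
    refine ⟨(0 : Fin 1), Finset.mem_univ _, fun c _ => ?_⟩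
    refine (hbot _).mpr fun hxy => ?_
    have h2 := ((Fintype.equivFin {y : Fin n → Bool // f y = false}).symm c).2
    rw [← hxy, hf] at h2
    exact absurd h2 (by decide)

end Vale.Agent.P336.H928
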